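import Vale.Agent.P181.TS.H187.Ord

set_option autoImplicit false

namespace Vale.Agent.P181.TS.H187

open Finset Vale.Agent.P181.TS

/-- **[TS-ORD1]** -/
theorem ord1 : Ord1 := by
  intro b R r l cl y G e hl _
  rw [mn_eq r cl y G (miss cl (univ.image e)) e hl (notMem_miss cl e)]
  exact dvd_mul_right _ _

end Vale.Agent.P181.TS.H187
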