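import Vale.Agent.P181.TS.H187.Ord

set_option autoImplicit false

namespace Vale.Agent.P181.TS.H187

open Finset Vale.Agent.P181.TS

lemma det_zero {b r g l : ℕ} (cl : Fin b → Fin (g * r)) (y : Fin b → Fin (g * r) → Bool)
    (G : Fin b → ℕ → ℂ) (e : Fin l → Fin b) (hr : 0 < r) (hl : g * r ≤ l)
    (he : Function.Injective e) (hS : Sing r cl y (univ.image e)) :
    (Matrix.of fun a s : Fin l =>
      q0 r cl y G (miss cl (univ.image e)) (e a) s).det = 0 := by
  classical
  obtain ⟨u, hu, v, hv, huv, hcl, hcard, hy⟩ := hS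
  rw [mem_image] at hu hv
  obtain ⟨a1, -, rfl⟩ := hu
  obtain ⟨a2, -, rfl⟩ := hv
  set K := miss cl (univ.image e) with hK
  set β : ℕ := (cl (e a1) : ℕ) / r with hβ
  -- the letters of the block
  have hc1 : (univ.filter fun a : Fin l => (cl (e a) : ℕ) / r = β).card = r := by
    refine Eq.trans ?_ hcard
    rw [inBlk, filter_image, card_image_of_injective _ he]
  have hβg : β < g := by
    rw [hβ]
    exact Nat.div_lt_of_lt_mul (lt_of_lt_of_eq (cl (e a1)).2 (mul_comm _ _))
  have hlt : ∀ j : Fin r, β * r + (j : ℕ) < g * r := by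
    intro j
    have h1 : (β + 1) * r ≤ g * r := Nat.mul_le_mul_right r hβg
    have h2 := j.2
    nlinarith
  let c : Fin r → Fin l := fun j => ⟨β * r + j, lt_of_lt_of_le (hlt j) hl⟩
  have hcinj : Function.Injective c := by
    intro j j' h
    have h1 : β * r + (j : ℕ) = β * r + (j' : ℕ) := congrArg Fin.val h
    exact Fin.ext (by omega)
  have hcard2 : Fintype.card (Fin r) =
      Fintype.card {a : Fin l // (cl (e a) : ℕ) / r = β} := by
    rw [Fintype.card_fin, Fintype.card_subtype, hc1]
  let σ : Fin r ≃ {a : Fin l // (cl (e a) : ℕ) / r = β} := Fintype.equivOfCardEq hcard2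
  let S : Matrix (Fin r) (Fin r) ℂ :=
    Matrix.of fun x j => q0 r cl y G K (e (σ x : Fin l)) (c j)
  have hdiv : ∀ j : Fin r, (β * r + (j : ℕ)) / r = β := by
    intro j
    rw [mul_comm, Nat.mul_add_div hr, Nat.div_eq_of_lt j.2, add_zero]
  have hS0 : S.det = 0 := by
    have hne : σ.symm ⟨a1, rfl⟩ ≠ σ.symm ⟨a2, by rw [hβ, hcl]⟩ := by
      intro h
      have h1 := congrArg Subtype.val (σ.symm.injective h)
      exact huv (congrArg e h1)
    apply Matrix.det_zero_of_row_eq hne
    ext j
    simp only [S, Matrix.of_apply, Equiv.apply_symm_apply]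
    have h1 : ∀ w : Fin b, q0 r cl y G K w ((c j : Fin l) : ℕ) =
        if (⟨β * r + j, hlt j⟩ : Fin (g * r)) ∈ K then
          (if (β * r + (j : ℕ)) / r = (cl w : ℕ) / r ∧ y w ⟨β * r + j, hlt j⟩ = true
            then 1 else 0)
        else (if cl w = ⟨β * r + j, hlt j⟩ then 1 else 0) := fun w =>
      q0_lt r cl y G K w ⟨β * r + j, hlt j⟩
    rw [h1, h1, ← hcl]
    by_cases hk : (⟨β * r + j, hlt j⟩ : Fin (g * r)) ∈ K
    · rw [if_pos hk, if_pos hk, hy _ hk (hdiv j)]
    · rw [if_neg hk, if_neg hk]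
  obtain ⟨w, hw0, hw⟩ := Matrix.exists_mulVec_eq_zero_iff.2 hS0
  apply Matrix.exists_mulVec_eq_zero_iff.1
  refine ⟨Function.extend c w 0, ?_, ?_⟩
  · intro h0
    apply hw0
    ext j
    have := congrFun h0 (c j)
    rw [hcinj.extend_apply] at this
    exact this
  · ext a
    rw [Matrix.mulVec, dotProduct, Pi.zero_apply]
    have h2 : ∑ j, q0 r cl y G K (e a) (c j) * w j =
        ∑ s, (Matrix.of fun a s : Fin l => q0 r cl y G K (e a) s) a s *
          Function.extend c w 0 s := by
      apply Fintype.sum_of_injective c hcinj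
      · intro s hs
        rw [Function.extend_apply' _ _ _ (fun h => hs h), Pi.zero_apply, mul_zero]
      · intro j
        rw [hcinj.extend_apply, Matrix.of_apply]
    rw [← h2]
    by_cases ha : (cl (e a) : ℕ) / r = β
    · have h3 := congrFun hw (σ.symm ⟨a, ha⟩)
      rw [Matrix.mulVec, dotProduct, Pi.zero_apply] at h3
      simp only [S, Matrix.of_apply, Equiv.apply_symm_apply] at h3
      exact h3
    · apply sum_eq_zero
      intro j _
      have h1 : q0 r cl y G K (e a) ((c j : Fin l) : ℕ) =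
          if (⟨β * r + j, hlt j⟩ : Fin (g * r)) ∈ K then
            (if (β * r + (j : ℕ)) / r = (cl (e a) : ℕ) / r ∧ y (e a) ⟨β * r + j, hlt j⟩ = true
              then 1 else 0)
          else (if cl (e a) = ⟨β * r + j, hlt j⟩ then 1 else 0) :=
        q0_lt r cl y G K (e a) ⟨β * r + j, hlt j⟩
      rw [h1]
      by_cases hk : (⟨β * r + j, hlt j⟩ : Fin (g * r)) ∈ K
      · rw [if_pos hk, if_neg, zero_mul]
        rintro ⟨h4, -⟩
        rw [hdiv] at h4
        exact ha h4.symm
      · rw [if_neg hk, if_neg, zero_mul]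
        intro h4
        apply ha
        rw [h4]
        exact hdiv j

/-- **[TS-ORD2]** -/
theorem ord2 : Ord2 := by
  intro b r g l cl y G e hr hl he hS
  exact dvd_mn r cl y G (miss cl (univ.image e)) e hl (notMem_miss cl e)
    (det_zero cl y G e hr hl he hS)

end Vale.Agent.P181.TS.H187
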