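import Vale.Agent.P181.TS.H187.Ord

set_option autoImplicit false

namespace Vale.Agent.P181.TS.H187

open Finset Vale.Agent.P181.TS

/-- extension of a linearly independent family -/
lemma ext_li {l R : ℕ} (v : Fin R → Fin l → ℂ) (hv : LinearIndependent ℂ v) (m : ℕ)
    (hRm : R ≤ m) (hml : m ≤ l) :
    ∃ w : Fin m → Fin l → ℂ, LinearIndependent ℂ w ∧
      ∀ (i : Fin m) (h : (i : ℕ) < R), w i = v ⟨i, h⟩ := by
  induction m, hRm using Nat.le_induction with
  | base => exact ⟨v, hv, fun i h => rfl⟩
  | succ m hm ih =>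
    obtain ⟨w, hw, hwv⟩ := ih (by omega)
    have h1 : m < Module.finrank ℂ (Fin l → ℂ) := by
      rw [Module.finrank_fin_fun]
      omega
    obtain ⟨x, hx⟩ := exists_linearIndependent_snoc_of_lt_finrank hw h1
    refine ⟨_, hx, ?_⟩
    intro i h
    have hi : (i : ℕ) < m := by omega
    exact (Fin.snoc_castSucc (α := fun _ => Fin l → ℂ) x w (⟨i, hi⟩ : Fin m)).trans (hwv _ h)

/-- the columns of the classes of a regular set are linearly independent -/
lemma li_cols {b r g l : ℕ} (cl : Fin b → Fin (g * r)) (y : Fin b → Fin (g * r) → Bool)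
    (G : Fin b → ℕ → ℂ) (e : Fin l → Fin b) (hR : Reg r cl y (univ.image e)) :
    LinearIndependent ℂ (fun (i : Fin (g * r)) (a : Fin l) =>
      q0 r cl y G (miss cl (univ.image e)) (e a) i) := by
  classical
  set K := miss cl (univ.image e) with hK
  rw [Fintype.linearIndependent_iff]
  intro c hc
  -- the equation of the letter `u`
  have key : ∀ u ∈ univ.image e,
      c (cl u) + ∑ i, (if i ∈ K ∧ (i : ℕ) / r = (cl u : ℕ) / r ∧ y u i = true then c i else 0) =
        0 := by
    intro u hu
    rw [mem_image] at hu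
    obtain ⟨a, -, rfl⟩ := hu
    have h1 := congrFun hc a
    rw [Pi.zero_apply, Finset.sum_apply] at h1
    have hn : cl (e a) ∉ K := notMem_miss cl e a
    have h2 : ∀ i : Fin (g * r), (c i • fun a : Fin l => q0 r cl y G K (e a) i) a =
        (if cl (e a) = i then c i else 0) +
          (if i ∈ K ∧ (i : ℕ) / r = (cl (e a) : ℕ) / r ∧ y (e a) i = true then c i else 0) := by
      intro i
      rw [Pi.smul_apply, smul_eq_mul, q0_lt]
      by_cases hi : i ∈ K
      · have h3 : cl (e a) ≠ i := fun h => hn (h ▸ hi)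
        rw [if_pos hi, if_neg h3, zero_add]
        by_cases h4 : (i : ℕ) / r = (cl (e a) : ℕ) / r ∧ y (e a) i = true
        · rw [if_pos h4, if_pos ⟨hi, h4⟩, mul_one]
        · rw [if_neg h4, if_neg (fun h => h4 h.2), mul_zero]
      · rw [if_neg hi, if_neg (show ¬ (i ∈ K ∧ (i : ℕ) / r = (cl (e a) : ℕ) / r ∧
          y (e a) i = true) from fun h => hi h.1), add_zero]
        split_ifs
        · rw [mul_one]
        · rw [mul_zero]
    rw [sum_congr rfl fun i _ => h2 i, sum_add_distrib, sum_ite_eq, if_pos (mem_univ _)] at h1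
    exact h1
  have hcov : ∀ i, i ∉ K → ∃ u ∈ univ.image e, cl u = i := by
    intro i hi
    by_contra h
    push Not at h
    apply hi
    rw [hK, miss, mem_filter]
    exact ⟨mem_univ _, h⟩
  intro i
  rcases hR ((i : ℕ) / r) with h | ⟨k, hkβ, hk, -, u, hu, v, hv, -, hcl, huβ, hy⟩
  · obtain ⟨u, hu, rfl⟩ := hcov i (h i rfl)
    have h1 := key u hu
    rw [sum_eq_zero, add_zero] at h1
    · exact h1
    · intro j _
      rw [if_neg]
      rintro ⟨h2, h3, -⟩
      exact h j h3 h2
  · -- the equations of the letters of the block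
    have key2 : ∀ w ∈ univ.image e, (cl w : ℕ) / r = (i : ℕ) / r →
        c (cl w) + (if y w k = true then c k else 0) = 0 := by
      intro w hw hwβ
      have h1 := key w hw
      rw [sum_eq_single k] at h1
      · have hkK : k ∈ K := (hk k hkβ).2 rfl
        by_cases h2 : y w k = true
        · rw [if_pos h2]
          rw [if_pos ⟨hkK, by rw [hkβ, hwβ], h2⟩] at h1
          exact h1
        · rw [if_neg h2]
          rw [if_neg (fun h => h2 h.2.2)] at h1
          exact h1
      · intro j _ hj
        rw [if_neg]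
        rintro ⟨h2, h3, -⟩
        exact hj ((hk j (by rw [h3, hwβ])).1 h2)
      · intro h
        exact absurd (mem_univ _) h
    have hck : c k = 0 := by
      have h1 := key2 u hu huβ
      have h2 := key2 v hv (by rw [← hcl, huβ])
      rw [← hcl] at h2
      cases hyu : y u k
      · have hyv : y v k = true := by
          cases hyv : y v k
          · rw [hyu, hyv] at hy
            exact absurd rfl hy
          · rfl
        rw [hyu, if_neg (by decide), add_zero] at h1
        rw [hyv, if_pos rfl, h1, zero_add] at h2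
        exact h2
      · have hyv : y v k = false := by
          cases hyv : y v k
          · rfl
          · rw [hyu, hyv] at hy
            exact absurd rfl hy
        rw [hyv, if_neg (by decide), add_zero] at h2
        rw [hyu, if_pos rfl, h2, zero_add] at h1
        exact h1
    by_cases hik : i = k
    · rw [hik, hck]
    · obtain ⟨w, hw, rfl⟩ := hcov i (fun h => hik ((hk i rfl).1 h))
      have h1 := key2 w hw rfl
      rw [hck] at h1
      split_ifs at h1 <;> simpa using h1

/-- the polynomial of the leading coefficient -/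
noncomputable def ldP {b R : ℕ} (r : ℕ) (cl : Fin b → Fin R) (y : Fin b → Fin R → Bool)
    (K : Finset (Fin R)) {l : ℕ} (e : Fin l → Fin b) : MvPolynomial (Fin b × ℕ) ℂ :=
  (Matrix.of fun a s : Fin l => if (s : ℕ) < R then
    MvPolynomial.C (q0 r cl y (fun _ _ => 0) K (e a) s) else MvPolynomial.X (e a, (s : ℕ))).det

lemma eval_ldP {b R : ℕ} (r : ℕ) (cl : Fin b → Fin R) (y : Fin b → Fin R → Bool)
    (K : Finset (Fin R)) {l : ℕ} (e : Fin l → Fin b) (t : Fin b × ℕ → ℂ) :
    MvPolynomial.eval t (ldP r cl y K e) =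
      (Matrix.of fun a s : Fin l => q0 r cl y (fun u i => t (u, i)) K (e a) s).det := by
  rw [ldP, RingHom.map_det]
  congr 1
  ext a s
  rw [RingHom.mapMatrix_apply, Matrix.map_apply, Matrix.of_apply, Matrix.of_apply]
  by_cases h : (s : ℕ) < R
  · rw [if_pos h, MvPolynomial.eval_C, q0, q0, dif_pos h, dif_pos h]
  · rw [if_neg h, MvPolynomial.eval_X, q0, dif_neg h]

lemma ldP_ne {b r g l : ℕ} (cl : Fin b → Fin (g * r)) (y : Fin b → Fin (g * r) → Bool)
    (e : Fin l → Fin b) (hl : g * r ≤ l) (he : Function.Injective e)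
    (hR : Reg r cl y (univ.image e)) :
    ldP r cl y (miss cl (univ.image e)) e ≠ 0 := by
  classical
  obtain ⟨w, hw, hwv⟩ := ext_li _ (li_cols cl y (fun _ _ => 0) e hR) l hl le_rfl
  let t : Fin b × ℕ → ℂ := fun x =>
    if h : x.2 < l then Function.extend e (w ⟨x.2, h⟩) 0 x.1 else 0
  intro h0
  have h1 : MvPolynomial.eval t (ldP r cl y (miss cl (univ.image e)) e) = 0 := by
    rw [h0, map_zero]
  rw [eval_ldP] at h1
  obtain ⟨z, hz0, hz⟩ := Matrix.exists_mulVec_eq_zero_iff.2 h1
  apply hz0
  rw [Fintype.linearIndependent_iff] at hw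
  have h2 : ∑ s, z s • w s = 0 := by
    ext a
    have h3 := congrFun hz a
    rw [Matrix.mulVec, dotProduct] at h3
    rw [Finset.sum_apply]
    refine Eq.trans (sum_congr rfl fun s _ => ?_) h3
    rw [Pi.smul_apply, smul_eq_mul, mul_comm, Matrix.of_apply]
    congr 1
    by_cases h : (s : ℕ) < g * r
    · rw [hwv s h]
      simp only [q0, dif_pos h]
    · rw [q0, dif_neg h]
      simp only [t]
      rw [dif_pos s.2, he.extend_apply]
  ext s
  exact hw z h2 s

/-- a common point where finitely many non-zero polynomials do not vanish. -/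
lemma exists_common' {σ κ : Type} [Fintype κ] (Q : κ → MvPolynomial σ ℂ) (hQ : ∀ k, Q k ≠ 0) :
    ∃ t : σ → ℂ, ∀ k, MvPolynomial.eval t (Q k) ≠ 0 := by
  classical
  have h1 : ∏ k, Q k ≠ 0 := prod_ne_zero_iff.2 fun k _ => hQ k
  have h2 : ∃ t : σ → ℂ, MvPolynomial.eval t (∏ k, Q k) ≠ 0 := by
    by_contra h
    push Not at h
    apply h1
    apply MvPolynomial.funext
    intro x
    rw [h x, map_zero]
  obtain ⟨t, ht⟩ := h2
  refine ⟨t, fun k => ?_⟩
  rw [map_prod] at ht
  exact prod_ne_zero_iff.1 ht k (mem_univ k)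

/-- **[TS-ORD3]** -/
theorem ord3 : Ord3 := by
  intro b r g cl y ι hι l e _ hl he hR
  have := Fintype.ofFinite ι
  obtain ⟨t, ht⟩ := exists_common'
    (fun c : ι => ldP r cl y (miss cl (univ.image (e c))) (e c))
    (fun c => ldP_ne cl y (e c) (hl c) (he c) (hR c))
  refine ⟨fun u i => t (u, i), fun c => ?_⟩
  rw [coeff_mn r cl y _ (miss cl (univ.image (e c))) (e c) (hl c) (notMem_miss cl (e c)),
    ← eval_ldP]
  exact ht c

end Vale.Agent.P181.TS.H187
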