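import Vale.Agent.P181.TS.H187.Test

set_option autoImplicit false

/-!
# P181, TS: the colourings of a class and the tests
-/

open Finset

namespace Vale.Agent.P181.TS.H187

/-- The number of `u < s` with bit `k` equal to one is at least `s / 4`, same for zero. -/
theorem bit_count (s k : ℕ) (hk : 2 ^ (k + 1) ≤ s) (v : Bool) :
    s ≤ 4 * ((univ : Finset (Fin s)).filter fun u : Fin s => Nat.testBit (u : ℕ) k = v).card := by
  classical
  obtain ⟨t, ht⟩ : ∃ t, t = s / 2 ^ (k + 1) := ⟨_, rfl⟩
  have hpos : 0 < 2 ^ (k + 1) := by positivity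
  have ht1 : 1 ≤ t := by
    rw [ht]
    exact (Nat.one_le_div_iff hpos).2 hk
  have hts : t * 2 ^ (k + 1) ≤ s := by
    rw [ht]
    exact Nat.div_mul_le_self _ _
  have hst : s < (t + 1) * 2 ^ (k + 1) := by
    rw [ht]
    have := Nat.lt_div_mul_add hpos (a := s)
    rw [Nat.add_mul, Nat.one_mul]
    exact this
  -- the injection (i, j) ↦ i * 2^(k+1) + v * 2^k + j
  let w : ℕ := if v then 2 ^ k else 0
  have hw : w ≤ 2 ^ k := by
    show (if v then 2 ^ k else 0) ≤ 2 ^ k
    split <;> omega
  have h2 : 2 ^ (k + 1) = 2 ^ k + 2 ^ k := by ring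
  have hlt : ∀ x : Fin t × Fin (2 ^ k), (x.1 : ℕ) * 2 ^ (k + 1) + (w + x.2) < s := by
    intro x
    have h3 : (x.1 : ℕ) + 1 ≤ t := x.1.2
    have h4 := Nat.mul_le_mul_right (2 ^ (k + 1)) h3
    have h5 := x.2.2
    rw [Nat.add_mul, Nat.one_mul] at h4
    omega
  have hbit : ∀ x : Fin t × Fin (2 ^ k),
      Nat.testBit ((x.1 : ℕ) * 2 ^ (k + 1) + (w + x.2)) k = v := by
    intro x
    have h5 := x.2.2
    rw [mul_comm, Nat.testBit_two_pow_mul_add _ (by omega), if_pos (by omega)]
    show Nat.testBit ((if v then 2 ^ k else 0) + (x.2 : ℕ)) k = v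
    cases v
    · simp only [Bool.false_eq_true, if_false, Nat.zero_add]
      exact Nat.testBit_lt_two_pow h5
    · simp only [if_true]
      rw [Nat.testBit_two_pow_add_eq, Nat.testBit_lt_two_pow h5]
      rfl
  have hinj : Function.Injective (fun x : Fin t × Fin (2 ^ k) =>
      (⟨(x.1 : ℕ) * 2 ^ (k + 1) + (w + x.2), hlt x⟩ : Fin s)) := by
    intro x y hxy
    have h3 : (x.1 : ℕ) * 2 ^ (k + 1) + (w + x.2) = (y.1 : ℕ) * 2 ^ (k + 1) + (w + y.2) :=
      congrArg Fin.val hxy
    have hx := x.2.2
    have hy := y.2.2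
    have h4 : (x.1 : ℕ) = y.1 := by
      have h5 : ((x.1 : ℕ) * 2 ^ (k + 1) + (w + x.2)) / 2 ^ (k + 1) = x.1 := by
        rw [mul_comm, Nat.mul_add_div hpos, Nat.div_eq_of_lt (by omega), add_zero]
      have h6 : ((y.1 : ℕ) * 2 ^ (k + 1) + (w + y.2)) / 2 ^ (k + 1) = y.1 := by
        rw [mul_comm, Nat.mul_add_div hpos, Nat.div_eq_of_lt (by omega), add_zero]
      rw [← h5, ← h6, h3]
    rw [h4] at h3
    exact Prod.ext (Fin.ext h4) (Fin.ext (by omega))
  have hcard : t * 2 ^ k ≤
      ((univ : Finset (Fin s)).filter fun u : Fin s => Nat.testBit (u : ℕ) k = v).card := by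
    have h3 : (univ : Finset (Fin t × Fin (2 ^ k))).card = t * 2 ^ k := by
      rw [card_univ, Fintype.card_prod, Fintype.card_fin, Fintype.card_fin]
    rw [← h3]
    refine card_le_card_of_injOn _ ?_ hinj.injOn
    intro x _
    rw [mem_coe, mem_filter]
    exact ⟨mem_univ _, hbit x⟩
  have h6 : (t + 1) * 2 ^ (k + 1) ≤ 4 * (t * 2 ^ k) := by
    have h7 : (t + 1) * 2 ^ (k + 1) = (2 * (t + 1)) * 2 ^ k := by ring
    rw [h7, ← mul_assoc]
    exact Nat.mul_le_mul_right _ (by omega)
  omega

/-- The number of `u < s` with `u < τ`. -/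
theorem lt_count (s τ : ℕ) (h : τ ≤ s) :
    ((univ : Finset (Fin s)).filter fun u : Fin s => decide ((u : ℕ) < τ) = true).card = τ := by
  classical
  have h1 : ((univ : Finset (Fin s)).filter fun u : Fin s => decide ((u : ℕ) < τ) = true) =
      (univ : Finset (Fin τ)).image (Fin.castLE h) := by
    ext u
    simp only [mem_filter, mem_univ, true_and, decide_eq_true_eq, mem_image]
    constructor
    · intro hu
      exact ⟨⟨u, hu⟩, rfl⟩
    · rintro ⟨v, rfl⟩
      exact v.2
  rw [h1, card_image_of_injective _ (Fin.castLE_injective h), card_univ, Fintype.card_fin]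

/-- The number of `u < s` with `τ ≤ u`. -/
theorem ge_count (s τ : ℕ) (h : τ ≤ s) :
    ((univ : Finset (Fin s)).filter fun u : Fin s => decide ((u : ℕ) < τ) = false).card = s - τ := by
  classical
  have h1 := lt_count s τ h
  have h2 := card_filter_add_card_filter_not (s := (univ : Finset (Fin s)))
    (fun u : Fin s => decide ((u : ℕ) < τ) = true)
  rw [h1, card_univ, Fintype.card_fin] at h2
  have h3 : ((univ : Finset (Fin s)).filter fun u : Fin s => ¬ decide ((u : ℕ) < τ) = true) =
      ((univ : Finset (Fin s)).filter fun u : Fin s => decide ((u : ℕ) < τ) = false) := by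
    apply filter_congr
    intro u _
    simp
  rw [h3] at h2
  omega

/-- **The tests of one class of `s` letters.** `K` colourings, `10` pairs of each colouring at
each letter; every nontrivial permutation of the class makes a pair monochromatic. -/
theorem tests (s K : ℕ) (hs : 8 ≤ s) (hK : Nat.log 2 s + 2 ≤ K) :
    ∃ (c : Fin K → Fin s → Bool) (T : Fin K → Finset (Fin s × Fin s)),
      (∀ k, ∀ x ∈ T k, c k x.1 = true ∧ c k x.2 = false) ∧ (∀ k, (T k).card ≤ 2 * s) ∧
      (∀ k a, ((T k).filter fun x => x.1 = a ∨ x.2 = a).card ≤ 10) ∧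
      ∀ ρ : Equiv.Perm (Fin s), ρ ≠ 1 → ∃ k, ∃ x ∈ T k, c k (ρ x.1) = c k (ρ x.2) := by
  classical
  obtain ⟨L, hL⟩ : ∃ L, L = Nat.log 2 s := ⟨_, rfl⟩
  rw [← hL] at hK
  have hLs : 2 ^ L ≤ s := by
    rw [hL]
    exact Nat.pow_log_le_self 2 (by omega)
  have hsL : s < 2 ^ (L + 1) := by
    rw [hL]
    exact Nat.lt_pow_succ_log_self (by norm_num) s
  -- an odd number between s / 4 and s / 2
  obtain ⟨τ, hτ1, hτ2, hτ3⟩ : ∃ τ, s ≤ 4 * τ ∧ 2 * τ < s ∧ τ % 2 = 1 := by
    rcases Nat.even_or_odd' ((s + 3) / 4) with ⟨z, hz | hz⟩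
    · exact ⟨(s + 3) / 4 + 1, by omega, by omega, by omega⟩
    · exact ⟨(s + 3) / 4, by omega, by omega, by omega⟩
  -- the colourings
  let c : Fin K → Fin s → Bool := fun k u =>
    if (k : ℕ) < L then Nat.testBit (u : ℕ) k
    else if (k : ℕ) = L then decide ((u : ℕ) < s / 2) else decide ((u : ℕ) < τ)
  have hc : ∀ k, s ≤ 4 * ((univ : Finset (Fin s)).filter fun a => c k a = true).card ∧
      s ≤ 4 * ((univ : Finset (Fin s)).filter fun a => c k a = false).card := by
    intro k
    by_cases h1 : (k : ℕ) < L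
    · have h2 : 2 ^ ((k : ℕ) + 1) ≤ s :=
        (Nat.pow_le_pow_right (by norm_num) (by omega)).trans hLs
      have h3 : c k = fun u : Fin s => Nat.testBit (u : ℕ) k := by
        funext u
        show (if (k : ℕ) < L then _ else _) = _
        rw [if_pos h1]
      rw [h3]
      exact ⟨bit_count s k h2 true, bit_count s k h2 false⟩
    · by_cases h2 : (k : ℕ) = L
      · have h3 : c k = fun u : Fin s => decide ((u : ℕ) < s / 2) := by
          funext u
          show (if (k : ℕ) < L then _ else _) = _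
          rw [if_neg h1, if_pos h2]
        rw [h3]
        rw [lt_count s (s / 2) (Nat.div_le_self _ _), ge_count s (s / 2) (Nat.div_le_self _ _)]
        omega
      · have h3 : c k = fun u : Fin s => decide ((u : ℕ) < τ) := by
          funext u
          show (if (k : ℕ) < L then _ else _) = _
          rw [if_neg h1, if_neg h2]
        rw [h3]
        rw [lt_count s τ (by omega), ge_count s τ (by omega)]
        omega
  have hT := fun k => zigzag (c k) s (Fintype.card_fin s) (hc k).1 (hc k).2 (by omega)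
  choose T hT1 hT0 hT2 hT3 using hT
  refine ⟨c, T, hT1, hT0, hT2, ?_⟩
  intro ρ hρ
  by_contra hcon
  push Not at hcon
  have h1 : ∀ k, (∀ a, c k (ρ a) = c k a) ∨ ∀ a, c k (ρ a) = !(c k a) := fun k =>
    hT3 k (fun a => c k (ρ a)) (hcon k)
  -- separation
  have hsep : ∀ a b : Fin s, (∀ k, c k a = c k b) → a = b := by
    intro a b h
    have hbit : ∀ k < L, Nat.testBit (a : ℕ) k = Nat.testBit (b : ℕ) k := by
      intro k hk
      have h2 := h ⟨k, by omega⟩
      have h3 : ∀ u : Fin s, c ⟨k, by omega⟩ u = Nat.testBit (u : ℕ) k := by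
        intro u
        show (if k < L then _ else _) = _
        rw [if_pos hk]
      rwa [h3, h3] at h2
    have hhalf : ((a : ℕ) < s / 2) ↔ ((b : ℕ) < s / 2) := by
      have h2 := h ⟨L, by omega⟩
      have h3 : ∀ u : Fin s, c ⟨L, by omega⟩ u = decide ((u : ℕ) < s / 2) := by
        intro u
        show (if L < L then _ else if L = L then _ else _) = _
        rw [if_neg (lt_irrefl _), if_pos rfl]
      rw [h3, h3] at h2
      simpa using h2
    have hmod : (a : ℕ) % 2 ^ L = (b : ℕ) % 2 ^ L := by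
      apply Nat.eq_of_testBit_eq
      intro i
      rw [Nat.testBit_mod_two_pow, Nat.testBit_mod_two_pow]
      by_cases hi : i < L
      · rw [hbit i hi]
      · simp [hi]
    have ha := a.2
    have hb := b.2
    have h2L : 2 ^ (L + 1) = 2 ^ L + 2 ^ L := by ring
    apply Fin.ext
    have ha2 := Nat.div_add_mod (a : ℕ) (2 ^ L)
    have hb2 := Nat.div_add_mod (b : ℕ) (2 ^ L)
    have hpos : 0 < 2 ^ L := by positivity
    have ha3 : (a : ℕ) / 2 ^ L < 2 := (Nat.div_lt_iff_lt_mul hpos).2 (by omega)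
    have hb3 : (b : ℕ) / 2 ^ L < 2 := (Nat.div_lt_iff_lt_mul hpos).2 (by omega)
    rcases Nat.lt_or_ge ((a : ℕ) / 2 ^ L) 1 with hA | hA <;>
      rcases Nat.lt_or_ge ((b : ℕ) / 2 ^ L) 1 with hB | hB
    · have e1 : (a : ℕ) / 2 ^ L = 0 := Nat.lt_one_iff.1 hA
      have e2 : (b : ℕ) / 2 ^ L = 0 := Nat.lt_one_iff.1 hB
      rw [e1, mul_zero] at ha2
      rw [e2, mul_zero] at hb2
      omega
    · exfalso
      have e1 : (a : ℕ) / 2 ^ L = 0 := Nat.lt_one_iff.1 hA
      have e2 : (b : ℕ) / 2 ^ L = 1 := le_antisymm (Nat.lt_succ_iff.1 hb3) hB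
      rw [e1, mul_zero] at ha2
      rw [e2, mul_one] at hb2
      omega
    · exfalso
      have e1 : (a : ℕ) / 2 ^ L = 1 := le_antisymm (Nat.lt_succ_iff.1 ha3) hA
      have e2 : (b : ℕ) / 2 ^ L = 0 := Nat.lt_one_iff.1 hB
      rw [e1, mul_one] at ha2
      rw [e2, mul_zero] at hb2
      omega
    · have e1 : (a : ℕ) / 2 ^ L = 1 := le_antisymm (Nat.lt_succ_iff.1 ha3) hA
      have e2 : (b : ℕ) / 2 ^ L = 1 := le_antisymm (Nat.lt_succ_iff.1 hb3) hB
      rw [e1, mul_one] at ha2
      rw [e2, mul_one] at hb2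
      omega
  -- ρ is an involution
  have hinv : ∀ a, ρ (ρ a) = a := by
    intro a
    apply hsep
    intro k
    rcases h1 k with h2 | h2
    · rw [h2, h2]
    · rw [h2, h2, Bool.not_not]
  -- some colouring is complemented
  have hex : ∃ k, ∀ a, c k (ρ a) = !(c k a) := by
    by_contra hno
    push Not at hno
    apply hρ
    ext a
    have h2 : ρ a = a := by
      apply hsep
      intro k
      rcases h1 k with h3 | h3
      · exact h3 a
      · obtain ⟨a', ha'⟩ := hno k
        exact absurd (h3 a') ha'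
    rw [h2]
    rfl
  obtain ⟨k, hk⟩ := hex
  have hfix : ∀ a, ρ a ≠ a := by
    intro a ha
    have h2 := hk a
    rw [ha] at h2
    revert h2
    cases c k a <;> simp
  -- the last colouring is preserved
  have hlast : ∀ u : Fin s, c ⟨L + 1, by omega⟩ u = decide ((u : ℕ) < τ) := by
    intro u
    show (if L + 1 < L then _ else if L + 1 = L then _ else _) = _
    rw [if_neg (by omega), if_neg (by omega)]
  have hpres : ∀ a : Fin s, decide ((ρ a : ℕ) < τ) = decide ((a : ℕ) < τ) := by
    rcases h1 ⟨L + 1, by omega⟩ with h2 | h2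
    · intro a
      rw [← hlast, ← hlast]
      exact h2 a
    · exfalso
      have h3 : ((univ : Finset (Fin s)).filter fun u : Fin s => decide ((u : ℕ) < τ) = true).card ≤
          ((univ : Finset (Fin s)).filter fun u : Fin s => decide ((u : ℕ) < τ) = false).card := by
        refine card_le_card_of_injOn ρ ?_ ρ.injective.injOn
        intro a ha
        rw [mem_coe, mem_filter] at ha ⊢
        refine ⟨mem_univ _, ?_⟩
        have h4 := h2 a
        rw [hlast, hlast, ha.2] at h4
        simpa using h4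
      have h3' : ((univ : Finset (Fin s)).filter fun u : Fin s => decide ((u : ℕ) < τ) = false).card ≤
          ((univ : Finset (Fin s)).filter fun u : Fin s => decide ((u : ℕ) < τ) = true).card := by
        refine card_le_card_of_injOn ρ ?_ ρ.injective.injOn
        intro a ha
        rw [mem_coe, mem_filter] at ha ⊢
        refine ⟨mem_univ _, ?_⟩
        have h4 := h2 a
        rw [hlast, hlast, ha.2] at h4
        simpa using h4
      rw [lt_count s τ (by omega), ge_count s τ (by omega)] at h3'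
      omega
  -- parity
  have hodd : ∑ _a ∈ (univ : Finset (Fin s)).filter (fun u : Fin s => decide ((u : ℕ) < τ) = true),
      (1 : ZMod 2) = 0 := by
    refine Finset.sum_involution (fun a _ => ρ a) ?_ ?_ ?_ ?_
    · intro a _
      decide
    · intro a _ _
      exact hfix a
    · intro a ha
      rw [mem_filter] at ha ⊢
      refine ⟨mem_univ _, ?_⟩
      rw [hpres a]
      exact ha.2
    · intro a _
      exact hinv a
  rw [sum_const, lt_count s τ (by omega), nsmul_eq_mul, mul_one, ZMod.natCast_eq_zero_iff] at hodd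
  omega

end Vale.Agent.P181.TS.H187
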