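import Vale.Agent.P181.TS.Spec
import Vale.Agent.P181.TS.H187.Col

set_option autoImplicit false

/-! # P181, TS: [TS-TEST] -/

open Finset

namespace Vale.Agent.P181.TS.H187

/-- **[TS-TEST]** -/
theorem testStmt : TestStmt := by
  intro s hs
  obtain ⟨c, T, h1, h2, h3, h4⟩ := tests s (Nat.log 2 s + 2) (by omega) le_rfl
  refine ⟨fun u k => c k u, T, ?_, h2, ?_, ?_⟩
  · intro k e he
    have h5 := h1 k e he
    show c k e.1 ≠ c k e.2
    rw [h5.1, h5.2]
    simp
  · intro k u
    exact h3 k u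
  · intro ρ hρ
    by_contra hne
    obtain ⟨k, x, hx, hx2⟩ := h4 ρ hne
    exact hρ k x hx hx2

end Vale.Agent.P181.TS.H187
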