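import Vale.Agent.P181.TS.Spec

/-!
# P181, TS: the orders of the minors

The columns of the missed classes are divisible by `X` (`mn_eq`); the constant term of the quotient
is the minor `q0`.
-/

set_option autoImplicit false

namespace Vale.Agent.P181.TS.H187

open Finset Vale.Agent.P181.TS

/-- the entries after the division of the missed columns by `X` -/
noncomputable def qt {b R : ℕ} (r : ℕ) (cl : Fin b → Fin R) (y : Fin b → Fin R → Bool)
    (G : Fin b → ℕ → ℂ) (K : Finset (Fin R)) (u : Fin b) (i : ℕ) : Polynomial ℂ :=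
  if h : i < R then
    (if (⟨i, h⟩ : Fin R) ∈ K then
      (if i / r = (cl u : ℕ) / r ∧ y u ⟨i, h⟩ = true then 1 else 0)
    else (if cl u = ⟨i, h⟩ then 1 else 0) +
      (if cl u ≠ ⟨i, h⟩ ∧ i / r = (cl u : ℕ) / r ∧ y u ⟨i, h⟩ = true then Polynomial.X else 0))
  else Polynomial.C (G u i)

/-- the divisors -/
noncomputable def dg {R : ℕ} (K : Finset (Fin R)) (i : ℕ) : Polynomial ℂ :=
  if h : i < R then (if (⟨i, h⟩ : Fin R) ∈ K then Polynomial.X else 1) else 1

/-- the constant terms of the entries -/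
noncomputable def q0 {b R : ℕ} (r : ℕ) (cl : Fin b → Fin R) (y : Fin b → Fin R → Bool)
    (G : Fin b → ℕ → ℂ) (K : Finset (Fin R)) (u : Fin b) (i : ℕ) : ℂ :=
  if h : i < R then
    (if (⟨i, h⟩ : Fin R) ∈ K then
      (if i / r = (cl u : ℕ) / r ∧ y u ⟨i, h⟩ = true then 1 else 0)
    else (if cl u = ⟨i, h⟩ then 1 else 0))
  else G u i

lemma pt_eq {b R : ℕ} (r : ℕ) (cl : Fin b → Fin R) (y : Fin b → Fin R → Bool)
    (G : Fin b → ℕ → ℂ) (K : Finset (Fin R)) {n : ℕ} (u : Fin b) (i : Fin n) (hu : cl u ∉ K) :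
    pt r cl y G n u i = dg K i * qt r cl y G K u i := by
  rw [pt, dg, qt]
  by_cases h : (i : ℕ) < R
  · rw [dif_pos h, dif_pos h, dif_pos h]
    by_cases hK : (⟨i, h⟩ : Fin R) ∈ K
    · have hne : cl u ≠ ⟨i, h⟩ := fun h' => hu (h' ▸ hK)
      rw [if_pos hK, if_pos hK, if_neg hne, zero_add]
      by_cases h2 : (i : ℕ) / r = (cl u : ℕ) / r ∧ y u ⟨i, h⟩ = true
      · rw [if_pos ⟨hne, h2⟩, if_pos h2, mul_one]
      · rw [if_neg (fun h' => h2 h'.2), if_neg h2, mul_zero]
    · rw [if_neg hK, if_neg hK, one_mul]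
  · rw [dif_neg h, dif_neg h, dif_neg h, one_mul]

lemma eval_qt {b R : ℕ} (r : ℕ) (cl : Fin b → Fin R) (y : Fin b → Fin R → Bool)
    (G : Fin b → ℕ → ℂ) (K : Finset (Fin R)) (u : Fin b) (i : ℕ) :
    (qt r cl y G K u i).eval 0 = q0 r cl y G K u i := by
  rw [qt, q0]
  by_cases h : i < R
  · rw [dif_pos h, dif_pos h]
    by_cases hK : (⟨i, h⟩ : Fin R) ∈ K
    · rw [if_pos hK, if_pos hK]
      split_ifs
      · exact Polynomial.eval_one
      · exact Polynomial.eval_zero
    · rw [if_neg hK, if_neg hK, Polynomial.eval_add]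
      split_ifs <;> simp
  · rw [dif_neg h, dif_neg h, Polynomial.eval_C]

lemma prod_dg {R : ℕ} (K : Finset (Fin R)) {l : ℕ} (hl : R ≤ l) :
    ∏ s : Fin l, dg K s = Polynomial.X ^ K.card := by
  classical
  have h1 : ∀ s : Fin l, dg K (s : ℕ) =
      if s ∈ K.map (Fin.castLEEmb hl) then Polynomial.X else 1 := by
    intro s
    rw [dg]
    by_cases h : (s : ℕ) < R
    · rw [dif_pos h]
      by_cases h' : (⟨s, h⟩ : Fin R) ∈ K
      · rw [if_pos h', if_pos]
        rw [mem_map]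
        exact ⟨⟨s, h⟩, h', rfl⟩
      · rw [if_neg h', if_neg]
        rw [mem_map]
        rintro ⟨x, hx, hx2⟩
        apply h'
        subst hx2
        exact hx
    · rw [dif_neg h, if_neg]
      rw [mem_map]
      rintro ⟨x, _, hx⟩
      apply h
      rw [← hx]
      exact x.2
  rw [prod_congr rfl fun s _ => h1 s, prod_ite_mem, univ_inter, prod_const, card_map]

/-- the factorisation of the minor -/
lemma mn_eq {b R : ℕ} (r : ℕ) (cl : Fin b → Fin R) (y : Fin b → Fin R → Bool)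
    (G : Fin b → ℕ → ℂ) (K : Finset (Fin R)) {l : ℕ} (e : Fin l → Fin b) (hl : R ≤ l)
    (hK : ∀ a, cl (e a) ∉ K) :
    mn r cl y G l e = Polynomial.X ^ K.card *
      (Matrix.of fun a s : Fin l => qt r cl y G K (e a) s).det := by
  rw [mn, ← prod_dg K hl, ← Matrix.det_mul_row]
  congr 1
  ext1 a s
  rw [Matrix.of_apply, Matrix.of_apply, pt_eq r cl y G K (e a) s (hK a), Matrix.of_apply]

lemma eval_det {b R : ℕ} (r : ℕ) (cl : Fin b → Fin R) (y : Fin b → Fin R → Bool)
    (G : Fin b → ℕ → ℂ) (K : Finset (Fin R)) {l : ℕ} (e : Fin l → Fin b) :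
    (Matrix.of fun a s : Fin l => qt r cl y G K (e a) s).det.coeff 0 =
      (Matrix.of fun a s : Fin l => q0 r cl y G K (e a) s).det := by
  rw [Polynomial.coeff_zero_eq_eval_zero, ← Polynomial.coe_evalRingHom, RingHom.map_det]
  congr 1
  ext a s
  rw [RingHom.mapMatrix_apply, Matrix.map_apply, Matrix.of_apply, Matrix.of_apply,
    Polynomial.coe_evalRingHom, eval_qt]

lemma coeff_mn {b R : ℕ} (r : ℕ) (cl : Fin b → Fin R) (y : Fin b → Fin R → Bool)
    (G : Fin b → ℕ → ℂ) (K : Finset (Fin R)) {l : ℕ} (e : Fin l → Fin b) (hl : R ≤ l)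
    (hK : ∀ a, cl (e a) ∉ K) :
    (mn r cl y G l e).coeff K.card =
      (Matrix.of fun a s : Fin l => q0 r cl y G K (e a) s).det := by
  rw [mn_eq r cl y G K e hl hK, ← eval_det]
  have h := Polynomial.coeff_X_pow_mul
    ((Matrix.of fun a s : Fin l => qt r cl y G K (e a) s).det) K.card 0
  rw [zero_add] at h
  exact h

lemma dvd_mn {b R : ℕ} (r : ℕ) (cl : Fin b → Fin R) (y : Fin b → Fin R → Bool)
    (G : Fin b → ℕ → ℂ) (K : Finset (Fin R)) {l : ℕ} (e : Fin l → Fin b) (hl : R ≤ l)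
    (hK : ∀ a, cl (e a) ∉ K)
    (h0 : (Matrix.of fun a s : Fin l => q0 r cl y G K (e a) s).det = 0) :
    Polynomial.X ^ (K.card + 1) ∣ mn r cl y G l e := by
  rw [mn_eq r cl y G K e hl hK, pow_succ]
  apply mul_dvd_mul_left
  rw [Polynomial.X_dvd_iff, eval_det, h0]

lemma notMem_miss {b R : ℕ} (cl : Fin b → Fin R) {l : ℕ} (e : Fin l → Fin b) (a : Fin l) :
    cl (e a) ∉ miss cl (univ.image e) := by
  rw [miss, mem_filter]
  rintro ⟨-, h⟩
  exact h (e a) (mem_image_of_mem e (mem_univ a)) rfl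

lemma q0_lt {b R : ℕ} (r : ℕ) (cl : Fin b → Fin R) (y : Fin b → Fin R → Bool)
    (G : Fin b → ℕ → ℂ) (K : Finset (Fin R)) (u : Fin b) (i : Fin R) :
    q0 r cl y G K u i =
      if i ∈ K then (if (i : ℕ) / r = (cl u : ℕ) / r ∧ y u i = true then 1 else 0)
      else (if cl u = i then 1 else 0) := by
  rw [q0, dif_pos i.2]

/-- a matrix with dominant diagonal orders has non-zero determinant -/
theorem diag_det_ne {ι : Type*} [Fintype ι] [DecidableEq ι] (P : Matrix ι ι (Polynomial ℂ))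
    (ω : ι → ℕ) (h1 : ∀ τ σ, Polynomial.X ^ ω τ ∣ P τ σ)
    (h2 : ∀ τ σ, τ ≠ σ → Polynomial.X ^ (ω τ + 1) ∣ P τ σ)
    (h3 : ∀ τ, (P τ τ).coeff (ω τ) ≠ 0) : P.det ≠ 0 := by
  choose Q hQ using h1
  have hP : P = Matrix.of fun τ σ => Polynomial.X ^ ω τ * Q τ σ := by
    ext1 τ σ
    rw [Matrix.of_apply, hQ]
  have hdet : P.det = (∏ τ, (Polynomial.X : Polynomial ℂ) ^ ω τ) * (Matrix.of Q).det := by
    rw [hP, ← Matrix.det_mul_column]
    rfl
  rw [hdet]
  apply mul_ne_zero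
  · exact prod_ne_zero_iff.2 fun τ _ => pow_ne_zero _ Polynomial.X_ne_zero
  · intro h0
    have h4 : (Matrix.of Q).det.eval 0 = 0 := by rw [h0, Polynomial.eval_zero]
    rw [← Polynomial.coe_evalRingHom, RingHom.map_det] at h4
    have h5 : (Polynomial.evalRingHom (0 : ℂ)).mapMatrix (Matrix.of Q) =
        Matrix.diagonal fun τ => (P τ τ).coeff (ω τ) := by
      ext τ σ
      rw [RingHom.mapMatrix_apply, Matrix.map_apply, Matrix.of_apply, Polynomial.coe_evalRingHom,
        ← Polynomial.coeff_zero_eq_eval_zero]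
      by_cases h : τ = σ
      · subst h
        rw [Matrix.diagonal_apply_eq, hQ τ τ]
        have h := Polynomial.coeff_X_pow_mul (Q τ τ) (ω τ) 0
        rw [zero_add] at h
        exact h.symm
      · rw [Matrix.diagonal_apply_ne _ h]
        have h6 := h2 τ σ h
        rw [hQ τ σ, pow_succ, mul_dvd_mul_iff_left (pow_ne_zero _ Polynomial.X_ne_zero),
          Polynomial.X_dvd_iff] at h6
        exact h6
    rw [h5, Matrix.det_diagonal] at h4
    exact prod_ne_zero_iff.2 (fun τ _ => h3 τ) h4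

end Vale.Agent.P181.TS.H187
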