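import Mathlib

set_option autoImplicit false

/-!
# P181, TS: the deterministic tests

Colourings of a class of `s` letters and a bounded degree system of pairs of letters of different
colours, such that every nontrivial permutation of the class makes one pair monochromatic.
-/

open Finset

namespace Vale.Agent.P181.TS.H187

/-- The pairs of one colouring: a connected bipartite graph of bounded degree between the two
colour classes. -/
theorem zigzag {α : Type} [Fintype α] [DecidableEq α] (c : α → Bool) (s : ℕ)
    (hs : Fintype.card α = s)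
    (hp : s ≤ 4 * (univ.filter fun a => c a = true).card)
    (hq : s ≤ 4 * (univ.filter fun a => c a = false).card) (h0 : 0 < s) :
    ∃ T : Finset (α × α), (∀ x ∈ T, c x.1 = true ∧ c x.2 = false) ∧ T.card ≤ 2 * s ∧
      (∀ a, (T.filter fun x => x.1 = a ∨ x.2 = a).card ≤ 10) ∧
      ∀ c' : α → Bool, (∀ x ∈ T, c' x.1 ≠ c' x.2) → (∀ a, c' a = c a) ∨ ∀ a, c' a = !(c a) := by
  classical
  obtain ⟨p, hpd⟩ : ∃ p, p = (univ.filter fun a => c a = true).card := ⟨_, rfl⟩
  obtain ⟨q, hqd⟩ : ∃ q, q = (univ.filter fun a => c a = false).card := ⟨_, rfl⟩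
  rw [← hpd] at hp
  rw [← hqd] at hq
  have hp0 : 0 < p := by omega
  have hq0 : 0 < q := by omega
  let e : Fin p ≃ (univ.filter fun a => c a = true) :=
    (Finset.equivFinOfCardEq hpd.symm).symm
  let f : Fin q ≃ (univ.filter fun a => c a = false) :=
    (Finset.equivFinOfCardEq hqd.symm).symm
  let E : ℕ → α := fun j => (e ⟨j % p, Nat.mod_lt _ hp0⟩ : α)
  let F : ℕ → α := fun j => (f ⟨j % q, Nat.mod_lt _ hq0⟩ : α)
  have hE : ∀ j, c (E j) = true := fun j => (mem_filter.1 (e ⟨j % p, Nat.mod_lt _ hp0⟩).2).2
  have hF : ∀ j, c (F j) = false := fun j => (mem_filter.1 (f ⟨j % q, Nat.mod_lt _ hq0⟩).2).2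
  have hEinj : ∀ i j, E i = E j → i % p = j % p := by
    intro i j h
    have h1 := e.injective (Subtype.ext h)
    simpa using h1
  have hFinj : ∀ i j, F i = F j → i % q = j % q := by
    intro i j h
    have h1 := f.injective (Subtype.ext h)
    simpa using h1
  have hEsurj : ∀ a, c a = true → ∃ j < s, E j = a := by
    intro a ha
    obtain ⟨i, hi⟩ := e.surjective ⟨a, mem_filter.2 ⟨mem_univ _, ha⟩⟩
    refine ⟨i, ?_, ?_⟩
    · have h1 : p ≤ s := by
        rw [hpd, ← hs, ← Finset.card_univ]
        exact card_filter_le _ _
      omega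
    · have h2 : (⟨(i : ℕ) % p, Nat.mod_lt _ hp0⟩ : Fin p) = i := by
        ext
        exact Nat.mod_eq_of_lt i.2
      show ((e ⟨(i : ℕ) % p, _⟩ : _) : α) = a
      rw [h2, hi]
  have hFsurj : ∀ a, c a = false → ∃ j < s, F j = a := by
    intro a ha
    obtain ⟨i, hi⟩ := f.surjective ⟨a, mem_filter.2 ⟨mem_univ _, ha⟩⟩
    refine ⟨i, ?_, ?_⟩
    · have h1 : q ≤ s := by
        rw [hqd, ← hs, ← Finset.card_univ]
        exact card_filter_le _ _
      omega
    · have h2 : (⟨(i : ℕ) % q, Nat.mod_lt _ hq0⟩ : Fin q) = i := by
        ext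
        exact Nat.mod_eq_of_lt i.2
      show ((f ⟨(i : ℕ) % q, _⟩ : _) : α) = a
      rw [h2, hi]
  -- the counting of one residue class
  have hcount : ∀ (n d : ℕ), 0 < n → s ≤ 4 * n → d ≤ 1 → ∀ i : ℕ,
      ((range s).filter fun j => (j + d) % n = i).card ≤ 5 := by
    intro n d hn hsn hd i
    have hinj : Set.InjOn (fun j => (j + d) / n) ((range s).filter fun j => (j + d) % n = i) := by
      intro x hx y hy hxy
      rw [coe_filter] at hx hy
      have h1 := Nat.div_add_mod (x + d) n
      have h2 := Nat.div_add_mod (y + d) n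
      have h3 : (x + d) / n = (y + d) / n := hxy
      rw [h3, hx.2] at h1
      rw [hy.2] at h2
      omega
    have hmap : Set.MapsTo (fun j => (j + d) / n)
        (((range s).filter fun j => (j + d) % n = i : Finset ℕ) : Set ℕ) (range 5 : Finset ℕ) := by
      intro x hx
      rw [coe_filter] at hx
      have h1 : x < s := mem_range.1 hx.1
      rw [mem_coe, mem_range]
      exact (Nat.div_lt_iff_lt_mul hn).2 (by omega)
    have := card_le_card_of_injOn _ hmap hinj
    simpa using this
  refine ⟨(range s).image (fun j => (E j, F j)) ∪ (range s).image (fun j => (E (j + 1), F j)),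
    ?_, ?_, ?_, ?_⟩
  rotate_left
  · refine (card_union_le _ _).trans ?_
    have h1 : ((range s).image (fun j => (E j, F j))).card ≤ s :=
      card_image_le.trans (card_range s).le
    have h2 : ((range s).image (fun j => (E (j + 1), F j))).card ≤ s :=
      card_image_le.trans (card_range s).le
    omega
  rotate_left
  rotate_left
  · intro x hx
    rw [mem_union, mem_image, mem_image] at hx
    rcases hx with ⟨j, -, rfl⟩ | ⟨j, -, rfl⟩
    · exact ⟨hE j, hF j⟩
    · exact ⟨hE _, hF j⟩
  · intro a
    rw [filter_union]
    refine (card_union_le _ _).trans ?_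
    have key : ∀ (d : ℕ), d ≤ 1 →
        (((range s).image (fun j => (E (j + d), F j))).filter fun x => x.1 = a ∨ x.2 = a).card ≤ 5 := by
      intro d hd
      rw [filter_image]
      refine card_image_le.trans ?_
      by_cases hc : c a = true
      · obtain ⟨j0, -, hj0⟩ := hEsurj a hc
        refine le_trans (card_le_card ?_) (hcount p d hp0 hp hd (j0 % p))
        intro j hj
        rw [mem_filter] at hj ⊢
        refine ⟨hj.1, ?_⟩
        rcases hj.2 with h | h
        · exact hEinj _ _ (h.trans hj0.symm)
        · exfalso
          have h1 := hF j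
          have h2 : F j = a := h
          rw [h2, hc] at h1
          exact Bool.noConfusion h1
      · have hc' : c a = false := by simpa using hc
        obtain ⟨j0, -, hj0⟩ := hFsurj a hc'
        refine le_trans (card_le_card ?_) (hcount q 0 hq0 hq (by omega) (j0 % q))
        intro j hj
        rw [mem_filter] at hj ⊢
        refine ⟨hj.1, ?_⟩
        rcases hj.2 with h | h
        · exfalso
          have h1 := hE (j + d)
          have h2 : E (j + d) = a := h
          rw [h2, hc'] at h1
          exact Bool.noConfusion h1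
        · rw [add_zero]
          exact hFinj _ _ (h.trans hj0.symm)
    have h0' := key 0 (by omega)
    have h1' := key 1 le_rfl
    simp only [add_zero] at h0'
    omega
  · intro c' hc'
    have h1 : ∀ j < s, c' (E j) ≠ c' (F j) := fun j hj =>
      hc' (E j, F j) (mem_union_left _ (mem_image.2 ⟨j, mem_range.2 hj, rfl⟩))
    have h2 : ∀ j < s, c' (E (j + 1)) ≠ c' (F j) := fun j hj =>
      hc' (E (j + 1), F j) (mem_union_right _ (mem_image.2 ⟨j, mem_range.2 hj, rfl⟩))
    have h3 : ∀ j, j ≤ s → c' (E j) = c' (E 0) := by
      intro j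
      induction j with
      | zero => intro _; rfl
      | succ j ih =>
        intro hj
        have h4 := ih (by omega)
        have h5 := h1 j (by omega)
        have h6 := h2 j (by omega)
        rw [← h4]
        revert h5 h6
        cases c' (E j) <;> cases c' (F j) <;> cases c' (E (j + 1)) <;> simp
    have h4 : ∀ j < s, c' (F j) = !(c' (E 0)) := by
      intro j hj
      have h5 := h1 j hj
      rw [h3 j (by omega)] at h5
      revert h5
      cases c' (E 0) <;> cases c' (F j) <;> simp
    by_cases ht : c' (E 0) = true
    · left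
      intro a
      by_cases hc : c a = true
      · obtain ⟨j, hj, hj0⟩ := hEsurj a hc
        rw [← hj0, h3 j (by omega), ht, hE]
      · have hc1 : c a = false := by simpa using hc
        obtain ⟨j, hj, hj0⟩ := hFsurj a hc1
        rw [← hj0, h4 j hj, ht, hF]
        rfl
    · right
      have ht' : c' (E 0) = false := by simpa using ht
      intro a
      by_cases hc : c a = true
      · obtain ⟨j, hj, hj0⟩ := hEsurj a hc
        rw [← hj0, h3 j (by omega), ht', hE]
        rfl
      · have hc1 : c a = false := by simpa using hc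
        obtain ⟨j, hj, hj0⟩ := hFsurj a hc1
        rw [← hj0, h4 j hj, ht', hF]

end Vale.Agent.P181.TS.H187
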